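import Vale.Agent.P011.H416.LineD

/-!
# The line theorem for all symmetric elements of a finite-dimensional division algebra

The field `k(σ)` of a symmetric element, the double centralizer of a symmetric element, and the
form of the line theorem which is used in the assembly of the core.
-/

namespace Vale.Agent.P011.H416

open Vale.Agent.P011.H674.Pair Vale.Agent.P011.H722 Vale.Agent.P011.H73.Gns Vale.Agent.P011.H966
open Vale.Agent.P011.H152 (xx)

universe u v

section Adjoin

variable {k : Type v} [Field k] {D : Type u} [DivisionRing D] [Algebra k D]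

/-- A finite-dimensional subalgebra of a division ring is closed under inverses. -/
theorem inv_mem_sub [FiniteDimensional k D] (S : Subalgebra k D) {x : D} (hx : x ∈ S) :
    x⁻¹ ∈ S := by
  by_cases h0 : x = 0
  · rw [h0, inv_zero]
    exact S.zero_mem
  have hinj : Function.Injective (LinearMap.mulLeft k (⟨x, hx⟩ : S)) := by
    intro a b hab
    have h1 : x * (a : D) = x * (b : D) := congrArg Subtype.val hab
    exact Subtype.ext (mul_left_cancel₀ h0 h1)
  have : FiniteDimensional k S := FiniteDimensional.finiteDimensional_submodule S.toSubmodule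
  obtain ⟨y, hy⟩ := LinearMap.surjective_of_injective hinj 1
  have h2 : x * (y : D) = 1 := congrArg Subtype.val hy
  rw [← eq_inv_of_mul_eq_one_right h2]
  exact y.2

/-- A commutative subalgebra which is closed under inverses is a field. -/
noncomputable abbrev fieldS (S : Subalgebra k D) (hc : ∀ x ∈ S, ∀ y ∈ S, x * y = y * x)
    (hi : ∀ x ∈ S, x⁻¹ ∈ S) : Field S :=
  { (inferInstance : Ring S) with
    mul_comm := fun x y => Subtype.ext (hc x x.2 y y.2)
    inv := fun x => ⟨(x : D)⁻¹, hi x x.2⟩
    exists_pair_ne := ⟨0, 1, fun h0 => zero_ne_one (congrArg Subtype.val h0)⟩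
    mul_inv_cancel := fun x hx => Subtype.ext (mul_inv_cancel₀ fun h0 => hx (Subtype.ext h0))
    inv_zero := Subtype.ext inv_zero
    nnqsmul := _
    qsmul := _
    nnqsmul_def := fun _ _ => rfl
    qsmul_def := fun _ _ => rfl }

theorem comm_adjoin (σ : D) : ∀ x ∈ Algebra.adjoin k {σ}, ∀ y ∈ Algebra.adjoin k {σ},
    x * y = y * x := fun _ hx _ hy =>
  Algebra.commute_of_mem_adjoin_singleton_of_commute hy
    (Algebra.commute_of_mem_adjoin_self hx).symm

theorem star_adjoin [StarRing D] (hst : ∀ x : k, star (algebraMap k D x) = algebraMap k D x)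
    {σ : D} (hσ : star σ = σ) {x : D} (hx : x ∈ Algebra.adjoin k {σ}) : star x = x := by
  have hk : ∀ (a : k) (y : D), algebraMap k D a * y = y * algebraMap k D a := Algebra.commutes
  induction hx using Algebra.adjoin_induction with
  | mem y hy => rw [Set.mem_singleton_iff.mp hy, hσ]
  | algebraMap r => exact hst r
  | add y z _ _ h1 h2 => rw [star_add, h1, h2]
  | mul y z hy hz h1 h2 => rw [star_mul, h1, h2, comm_adjoin σ z hz y hy]

end Adjoin

section Cent

variable {D : Type u} [DivisionRing D] [StarRing D]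

/-- The double centralizer of a symmetric element. -/
theorem exists_cstar {δ : D} (hδ : ∀ x : D, δ * x = x * δ) {σ : D} (hσ : star σ = σ) :
    ∃ (E : Subring D) (_ : CStar δ E), σ ∈ E ∧ ∀ z : D, (∀ x, z * x = x * z) → z ∈ E := by
  have hC : ∀ x : D, x ∈ Subring.centralizer {σ} ↔ σ * x = x * σ := fun x => by
    rw [Subring.mem_centralizer_iff]
    simp
  have hCs : ∀ x : D, x ∈ Subring.centralizer {σ} → star x ∈ Subring.centralizer {σ} := by
    intro x hx
    rw [hC] at hx ⊢
    have := congrArg star hx
    rw [star_mul, star_mul, hσ] at this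
    exact this.symm
  have hE : ∀ x : D, x ∈ Subring.centralizer (Subring.centralizer {σ} : Set D) ↔
      ∀ y, σ * y = y * σ → y * x = x * y := fun x => by
    rw [Subring.mem_centralizer_iff]
    exact forall_congr' fun y => by rw [SetLike.mem_coe, hC]
  refine ⟨Subring.centralizer (Subring.centralizer {σ} : Set D), ⟨?_, ?_, ?_, ?_⟩, ?_, ?_⟩
  · intro x hx y hy
    rw [hE] at hx hy
    exact hy x (hx σ rfl)
  · intro x hx
    rw [hE] at hx ⊢
    intro y hy
    have h1 := hx (star y) ((hC _).mp (hCs y ((hC y).mpr hy)))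
    have h2 := congrArg star h1
    rw [star_mul, star_mul, star_star] at h2
    exact h2.symm
  · intro x hx
    rw [hE] at hx ⊢
    exact fun y hy => (Commute.inv_right₀ (show Commute y x from hx y hy) : Commute y x⁻¹)
  · rw [hE]
    exact fun y _ => (hδ y).symm
  · rw [hE]
    exact fun y hy => hy.symm
  · intro z hz
    rw [hE]
    exact fun y _ => (hz y).symm

end Cent

variable {k : Type v} [Field k] {D : Type u} [DivisionRing D] [StarRing D] [Algebra k D]
  [FiniteDimensional k D] {U : Subgroup Dˣ} {δ : D} (h : Chart U δ)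

include h

/-- **The line theorem (P10), in a commutative star-closed subring `E`** which contains `k`.  The
only analytic hypothesis is `hNE`, the output of P9; `hP2` is the group lemma P2. -/
theorem line_D [CharZero k] {Q : Type*} [Group Q] [Fintype Q] {P : Subgroup Q}
    (hP : P.Normal) (hP2 : ∀ (r s : Q) (D : Q → Q → ℝ), Commute r s → PairLaw P r s D →
      (r = 1 ↔ s = 1))
    (hst : ∀ x : k, star (algebraMap k D x) = algebraMap k D x)
    {d : k} (hd : δ ^ 2 = algebraMap k D d)
    (c : U →* Q) (hc : ∀ u : U, (∀ x : D, ((u : Dˣ) : D) * x = x * ((u : Dˣ) : D)) → c u = 1)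
    {E : Subring D} (hE : CStar δ E) (hkE : ∀ x : k, algebraMap k D x ∈ E)
    (hNE : ∀ u : U, ((u : Dˣ) : D) ∈ E →
      NE c P {g | ∃ π ∈ h.PE hE, g = h.L u * π ∨ g = (h.L u)⁻¹ * π}
        (fun b : k => h.T (algebraMap k D b)))
    {σ : D} (hσ : star σ = σ) (hσE : σ ∈ E) (h1 : c (h.cayU hσ) = 1) (b : k) :
    c (h.cayU (s := σ + algebraMap k D b) (by rw [star_add, hσ, hst])) = 1 := by
  by_cases hk : ∃ a : k, σ = algebraMap k D a
  · obtain ⟨a, ha⟩ := hk
    refine hc _ fun x => ?_
    have h2 : ∀ t : D, (∀ x, t * x = x * t) → ∀ x, cay δ t * x = x * cay δ t := by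
      intro t ht x
      have e1 : Commute (t + δ) x := (show Commute t x from ht x).add_left (h.comm x)
      have e2 : Commute (t - δ) x := (show Commute t x from ht x).sub_left (h.comm x)
      exact (e1.mul_left e2.inv_left₀).eq
    exact h2 _ (fun x => by
      rw [ha, ← map_add]
      exact Algebra.commutes _ _) x
  push Not at hk
  let S := Algebra.adjoin k {σ}
  let _ : Field S := fieldS S (comm_adjoin σ) (fun x hx => inv_mem_sub S hx)
  have hSE : ∀ x ∈ S, x ∈ E := by
    intro x hx
    induction hx using Algebra.adjoin_induction with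
    | mem y hy => rwa [Set.mem_singleton_iff.mp hy]
    | algebraMap r => exact hkE r
    | add y z _ _ h1 h2 => exact E.add_mem h1 h2
    | mul y z _ _ h1 h2 => exact E.mul_mem h1 h2
  have hSfin : FiniteDimensional k S := FiniteDimensional.finiteDimensional_submodule S.toSubmodule
  have hφ : ∀ l : S, star (S.val l) = S.val l := fun l => star_adjoin hst hσ l.2
  let s : S := ⟨σ, Algebra.self_mem_adjoin_singleton k σ⟩
  have hgen : Algebra.adjoin k {s} = ⊤ := by
    rw [eq_top_iff]
    rintro ⟨x, hx⟩ -
    induction hx using Algebra.adjoin_induction with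
    | mem y hy =>
      have : (⟨y, Algebra.subset_adjoin hy⟩ : S) = s := Subtype.ext (Set.mem_singleton_iff.mp hy)
      rw [this]
      exact Algebra.self_mem_adjoin_singleton k s
    | algebraMap r => exact (Algebra.adjoin k {s}).algebraMap_mem r
    | add y z hy hz h1 h2 => exact (Algebra.adjoin k {s}).add_mem h1 h2
    | mul y z hy hz h1 h2 => exact (Algebra.adjoin k {s}).mul_mem h1 h2
  have hne : ∀ b : k, xx s d b ≠ 0 := xx_ne h (φ := S.val) hφ hd s
  have h3 := line_L h hP hP2 c hE (φ := S.val) hφ (fun l => hSE _ l.2) Algebra.commutes hd hNE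
    (s := s) (Vale.Agent.P011.H152.span_inv s d hgen hne)
    (fun b h0 => hk b (congrArg Subtype.val h0)) h1 b
  exact h3

/-- **The line theorem in the form of the assembly of the core.**  `sp` is a property of the
symmetric elements (below: the image at the place `q₀` is split regular) for which P9 holds. -/
theorem line_core [CharZero k] {Q : Type*} [Group Q] [Fintype Q] {P : Subgroup Q}
    (hP : P.Normal) (hP2 : ∀ (r s : Q) (D : Q → Q → ℝ), Commute r s → PairLaw P r s D →
      (r = 1 ↔ s = 1))
    (hst : ∀ x : k, star (algebraMap k D x) = algebraMap k D x)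
    {d : k} (hd : δ ^ 2 = algebraMap k D d)
    (c : U →* Q) (hc : ∀ u : U, (∀ x : D, ((u : Dˣ) : D) * x = x * ((u : Dˣ) : D)) → c u = 1)
    {sp : D → Prop}
    (hNE : ∀ (E : Subring D) (hE : CStar δ E), (∀ x : k, algebraMap k D x ∈ E) →
      ∀ σ₁ ∈ E, star σ₁ = σ₁ → sp σ₁ → ∀ u : U, ((u : Dˣ) : D) ∈ E →
      NE c P {g | ∃ π ∈ h.PE hE, g = h.L u * π ∨ g = (h.L u)⁻¹ * π}
        (fun b : k => h.T (algebraMap k D b)))
    {σ₁ : D} (hσ₁ : star σ₁ = σ₁) (hsp : sp σ₁) {σ : D} (hσ : star σ = σ)
    (hmem : σ ∈ Algebra.adjoin k {σ₁}) (h1 : c (h.cayU hσ) = 1) (b : k) :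
    c (h.cayU (s := σ + algebraMap k D b) (by rw [star_add, hσ, hst])) = 1 := by
  obtain ⟨E, hE, hσE, hZ⟩ := exists_cstar h.comm hσ₁
  have hkE : ∀ x : k, algebraMap k D x ∈ E := fun x => hZ _ (Algebra.commutes x)
  have hSE : ∀ x ∈ Algebra.adjoin k {σ₁}, x ∈ E := by
    intro x hx
    induction hx using Algebra.adjoin_induction with
    | mem y hy => rwa [Set.mem_singleton_iff.mp hy]
    | algebraMap r => exact hkE r
    | add y z _ _ h1 h2 => exact E.add_mem h1 h2
    | mul y z _ _ h1 h2 => exact E.mul_mem h1 h2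
  exact line_D h hP hP2 hst hd c hc hE hkE (hNE E hE hkE σ₁ hσE hσ₁ hsp) hσ (hSE σ hmem) h1 b

end Vale.Agent.P011.H416
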