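import Vale.Agent.P011.H416.LineNF
import Vale.Agent.P011.H966.NeQ0
import Vale.Agent.P011.H976.T1Core

/-!
# The core over a number field

The line theorem and the statement of the core at every split place, and the theorem on the finite
quotients of `SU_1(D, *)`.
-/

open Matrix NumberField IsDedekindDomain Module

set_option linter.unusedSectionVars false

namespace Vale.Agent.P011.H416

open Vale.Agent.P011.Arith Vale.Agent.P011.Even Vale.Agent.P011.Two Vale.Agent.P011.One
  Vale.Agent.P011.H976 Vale.Agent.P011.H674.Pair Vale.Agent.P011.H966 Vale.Agent.P011.H565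

variable {k K D : Type} [Field k] [NumberField k] [Field K] [NumberField K] [StarRing K]
  [DivisionRing D] [StarRing D] [Algebra k K] [Algebra k D] [Algebra K D] [IsScalarTower k K D]
  {d : kˣ} {s : K} {Ω : Type} [Field Ω] [Algebra K Ω] {n M : ℕ}

/-- **The line theorem at every split place.** -/
theorem lineThm_nf (hS : Setting k K D d s) (hn : 1 < n) (hdeg : finrank K D = n ^ 2)
    (f : D →ₐ[K] Matrix (Fin n) (Fin n) Ω) (B : Basis (Fin M) k D)
    {q : HeightOneSpectrum (𝓞 k)} {φ : K →+* q.adicCompletion k}
    {f0 : D →+* Matrix (Fin n) (Fin n) (q.adicCompletion k)} (h : SplAt K D n q φ f0) :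
    H3.LineThm s f B f0 := by
  intro E iE c R hT hc
  have := hT.fin
  exact lineAt_of_NE hS hT.normal hT.min hT.cent
    (fun u hu => hc u fun g _ => Subtype.ext (Units.ext (hu _)))
    fun E hE hkE σ₁ hσE hσs hsr u hu =>
      ne_nf hS hn hdeg f B h (chart_NF hS) hE hkE hσE hσs hsr hu hT

/-- **The core at every split place.** -/
theorem core_nf (hS : Setting k K D d s) (hn : 1 < n) (hdeg : finrank K D = n ^ 2)
    (f : D →ₐ[K] Matrix (Fin n) (Fin n) Ω) (B : Basis (Fin M) k D)
    {q : HeightOneSpectrum (𝓞 k)} {φ : K →+* q.adicCompletion k}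
    {f0 : D →+* Matrix (Fin n) (Fin n) (q.adicCompletion k)} (h : SplAt K D n q φ f0) :
    CoreAt f B q :=
  H3.core_false hS (by omega) hdeg f B h (lineThm_nf hS hn hdeg f B h)

/-- **Every finite quotient of `SU_1(D, *)` is solvable**, `D` a division algebra of degree at
least three over a number field, with an involution of the second kind. -/
theorem t1_nf (hS : Setting k K D d s) (hn : 3 ≤ n) (hdeg : finrank K D = n ^ 2)
    (f : D →ₐ[K] Matrix (Fin n) (Fin n) Ω) (B : Basis (Fin M) k D)
    (N : Subgroup (SUD f)) [N.Normal] (hi : N.index ≠ 0) : Group.IsSolvable (SUD f ⧸ N) :=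
  t1_of_core hS hn hdeg f B ∅ Set.finite_empty
    (fun _ _ _ _ h => core_nf hS (by omega) hdeg f B h) N hi

end Vale.Agent.P011.H416
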