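import Vale.Agent.P011.H73.LineOm
import Vale.Agent.P011.H966.NE
import Vale.Agent.P011.H674.OneStep

/-!
# The line theorem in a division ring with involution

The abstract line theorem `H73.Gns.line_perm_om` in the letters of `H674` (`T`, `W`, `L`, `cay`).
The only analytic hypothesis is `H966.NE`, the output of P9.
-/

namespace Vale.Agent.P011.H416

open Vale.Agent.P011.H674.Pair Vale.Agent.P011.H722 Vale.Agent.P011.H73.Gns Vale.Agent.P011.H966
open Vale.Agent.P011.H152 (xx)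

universe u

/-- The span condition is invariant under the translations of the base point. -/
theorem span_shift {k L : Type*} [Field k] [Field L] [Algebra k L] {s : L} {d : k}
    (hspan : ∃ N0 : ℕ, ∀ B : Finset k, N0 ≤ B.card →
      Submodule.span k ((fun b : k => (xx s d b)⁻¹) '' (B : Set k)) = ⊤) (b₀ : k) :
    ∃ N0 : ℕ, ∀ B : Finset k, N0 ≤ B.card →
      Submodule.span k ((fun b : k => (xx (s + algebraMap k L b₀) d b)⁻¹) '' (B : Set k)) = ⊤ := by
  obtain ⟨N0, hN⟩ := hspan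
  refine ⟨N0, fun B hB => ?_⟩
  have h1 := hN (B.map (addLeftEmbedding b₀)) (by rwa [Finset.card_map])
  rw [Finset.coe_map, Set.image_image] at h1
  rw [← h1]
  congr 2
  funext b
  unfold xx
  rw [addLeftEmbedding_apply, map_add, add_assoc]

section LField

variable {k L : Type*} [Field k] [Field L] [Algebra k L] {D : Type u} [DivisionRing D] [StarRing D]
  [Algebra k D] {U : Subgroup Dˣ} {δ : D} (h : Chart U δ)

omit [StarRing D] in
theorem comm_map (φ : L →ₐ[k] D) (a b : L) : φ a * φ b = φ b * φ a := by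
  rw [← map_mul, mul_comm, map_mul]

omit [StarRing D] in
theorem xx_map (φ : L →ₐ[k] D) {d : k} (hd : δ ^ 2 = algebraMap k D d) (s : L) (b : k) :
    φ (xx s d b) = (φ s + algebraMap k D b) ^ 2 - δ ^ 2 := by
  unfold xx
  rw [map_sub, map_pow, map_add, AlgHom.commutes, AlgHom.commutes, hd]

omit [StarRing D] in
theorem sc_map (φ : L →ₐ[k] D) {d : k} (hd : δ ^ 2 = algebraMap k D d) (s : L) (b : k) :
    φ (xx s d b / xx s d 0) = sc δ (φ s) (algebraMap k D b) := by
  unfold sc
  rw [map_div₀, xx_map φ hd, xx_map φ hd, map_zero, add_zero, div_eq_mul_inv]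

omit [StarRing D] in
theorem wc_map (φ : L →ₐ[k] D) {d : k} (hd : δ ^ 2 = algebraMap k D d) (s : L) (b c : k) :
    φ (algebraMap k L (c * b * (b - c)) / xx s d 0) =
      wc δ (φ s) (algebraMap k D b) (algebraMap k D c) := by
  unfold wc
  rw [map_div₀, xx_map φ hd, map_zero, add_zero, div_eq_mul_inv, AlgHom.commutes, map_mul, map_mul,
    map_sub]

omit [StarRing D] in
theorem vv_map (φ : L →ₐ[k] D) {d : k} (hd : δ ^ 2 = algebraMap k D d) (s : L) (b : k) :
    φ (algebraMap k L b * (s ^ 2 + algebraMap k L b * s + algebraMap k L d) *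
      (s ^ 2 - algebraMap k L d)⁻¹) = vv δ (φ s) (algebraMap k D b) := by
  unfold vv
  rw [hd, map_mul, map_mul, map_add, map_add, map_mul, map_inv₀, map_sub, map_pow,
    AlgHom.commutes, AlgHom.commutes]

include h

theorem xx_ne {φ : L →ₐ[k] D} (hφ : ∀ l, star (φ l) = φ l) {d : k}
    (hd : δ ^ 2 = algebraMap k D d) (s : L) (b : k) : xx s d b ≠ 0 := by
  intro h0
  have h1 := xx_map φ hd s b
  rw [h0, map_zero] at h1
  have h2 : φ s + algebraMap k D b = φ (s + algebraMap k L b) := by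
    rw [map_add, AlgHom.commutes]
  rw [h2] at h1
  exact h.sq_sub_ne (hφ _) h1.symm

theorem two_ne : (2 : k) ≠ 0 := fun h0 => h.two (by
  have := congrArg (algebraMap k D) h0
  rwa [map_ofNat, map_zero] at this)

/-- The relations of the one-step maps `g`. -/
theorem datP_gp {φ : L →ₐ[k] D} (hφ : ∀ l, star (φ l) = φ l) {d : k}
    (hd : δ ^ 2 = algebraMap k D d) {s : L}
    (hspan : ∃ N0 : ℕ, ∀ B : Finset k, N0 ≤ B.card →
      Submodule.span k ((fun b : k => (xx s d b)⁻¹) '' (B : Set k)) = ⊤)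
    (hs : ∀ b : k, s ≠ algebraMap k L b) :
    DatP s d 1 (fun l => h.T (φ l)) (fun b => h.gp (φ s) (algebraMap k D b)) where
  two := two_ne (k := k) h
  span := hspan
  ene := one_ne_zero
  ne := xx_ne h hφ hd s
  notin := hs
  add a b := by rw [map_add, h.T_add (hφ a) (hφ b)]
  conj b l := by
    rw [← AlgHom.commutes φ b, map_mul, sc_map φ hd, ← AlgHom.commutes φ b,
      ← h.gp_T (hφ s) (hφ _) (comm_map φ _ _) (hφ l) (comm_map φ _ _) (comm_map φ _ _),
      inv_mul_cancel_right]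
  comm b c := by
    rw [one_mul, wc_map φ hd, ← AlgHom.commutes φ b, ← AlgHom.commutes φ c, ← mul_assoc,
      ← h.gp_gp (hφ s) (hφ _) (hφ _) (comm_map φ _ _) (comm_map φ _ _) (comm_map φ _ _),
      inv_mul_cancel_right]

/-- The relations of the one-step maps `g⁻`. -/
theorem datP_gm {φ : L →ₐ[k] D} (hφ : ∀ l, star (φ l) = φ l) {d : k}
    (hd : δ ^ 2 = algebraMap k D d) {s : L}
    (hspan : ∃ N0 : ℕ, ∀ B : Finset k, N0 ≤ B.card →
      Submodule.span k ((fun b : k => (xx s d b)⁻¹) '' (B : Set k)) = ⊤)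
    (hs : ∀ b : k, s ≠ algebraMap k L b) :
    DatP s d (-1) (fun l => h.T (φ l)) (fun b => h.gm (φ s) (algebraMap k D b)) where
  two := two_ne (k := k) h
  span := hspan
  ene := neg_ne_zero.mpr one_ne_zero
  ne := xx_ne h hφ hd s
  notin := hs
  add a b := by rw [map_add, h.T_add (hφ a) (hφ b)]
  conj b l := by
    rw [← AlgHom.commutes φ b, map_mul, sc_map φ hd, ← AlgHom.commutes φ b,
      ← h.gm_T (hφ s) (hφ _) (comm_map φ _ _) (hφ l) (comm_map φ _ _) (comm_map φ _ _),
      inv_mul_cancel_right]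
  comm b c := by
    rw [neg_one_mul, map_neg, neg_div, map_neg, wc_map φ hd, ← AlgHom.commutes φ b,
      ← AlgHom.commutes φ c, ← mul_assoc,
      ← h.gm_gm (hφ s) (hφ _) (hφ _) (comm_map φ _ _) (comm_map φ _ _) (comm_map φ _ _),
      inv_mul_cancel_right]

/-- The group of the permutations `T v W e` is solvable. -/
theorem isSolvable_PE {E : Subring D} (hE : CStar δ E) : Group.IsSolvable (h.PE hE) :=
  isSolvable_of_comm (h.TE hE) (h.TE_comm hE) (h.commutator_mem_TE hE)

/-- **The line theorem for a subfield of symmetric elements** in which the span condition of P3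
holds. -/
theorem line_L [Infinite k] {Q : Type*} [Group Q] [Fintype Q] {P : Subgroup Q}
    (hP : P.Normal) (hP2 : ∀ (r s : Q) (D : Q → Q → ℝ), Commute r s → PairLaw P r s D →
      (r = 1 ↔ s = 1))
    (c : U →* Q) {E : Subring D} (hE : CStar δ E) {φ : L →ₐ[k] D} (hφ : ∀ l, star (φ l) = φ l)
    (hφE : ∀ l, φ l ∈ E) (hk : ∀ (x : k) (y : D), algebraMap k D x * y = y * algebraMap k D x)
    {d : k} (hd : δ ^ 2 = algebraMap k D d)
    (hNE : ∀ u : U, ((u : Dˣ) : D) ∈ E →
      NE c P {g | ∃ π ∈ h.PE hE, g = h.L u * π ∨ g = (h.L u)⁻¹ * π}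
        (fun b : k => h.T (algebraMap k D b)))
    {s : L} (hspan : ∃ N0 : ℕ, ∀ B : Finset k, N0 ≤ B.card →
      Submodule.span k ((fun b : k => (xx s d b)⁻¹) '' (B : Set k)) = ⊤)
    (hs : ∀ b : k, s ≠ algebraMap k L b) (h1 : c (h.cayU (hφ s)) = 1) (b : k) :
    c (h.cayU (hφ (s + algebraMap k L b))) = 1 := by
  have hsb : ∀ b : k, star (algebraMap k D b) = algebraMap k D b := fun b => by
    rw [← AlgHom.commutes φ b, hφ]
  have hadd : ∀ b₀ b : k, φ (s + algebraMap k L (b₀ + b)) =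
      φ (s + algebraMap k L b₀) + algebraMap k D b := fun b₀ b => by
    rw [← AlgHom.commutes φ b, ← map_add, map_add (algebraMap k L), add_assoc]
  have hcs : ∀ b₀ b : k, φ (s + algebraMap k L b₀) * algebraMap k D b =
      algebraMap k D b * φ (s + algebraMap k L b₀) := fun b₀ b => (hk b _).symm
  have hu : ∀ b₀ b : k, h.ut (hφ (s + algebraMap k L b₀)) (hsb b) =
      h.cayU (hφ (s + algebraMap k L (b₀ + b))) * (h.cayU (hφ (s + algebraMap k L b₀)))⁻¹ :=
    fun b₀ b => by
      unfold Chart.ut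
      rw [h.cayU_congr _ (hφ (s + algebraMap k L (b₀ + b))) (hadd b₀ b).symm]
  have hcay : ∀ l : L, cay δ (φ l) ∈ E := fun l => hE.cay_mem (hφE l)
  have hcommE : ∀ (b₀ b : k) (l : L), ((h.ut (hφ (s + algebraMap k L b₀)) (hsb b) : Dˣ) : D) * φ l *
      star ((h.ut (hφ (s + algebraMap k L b₀)) (hsb b) : Dˣ) : D) = φ l := by
    intro b₀ b l
    have h2 : ((h.ut (hφ (s + algebraMap k L b₀)) (hsb b) : Dˣ) : D) ∈ E := by
      rw [h.coe_ut, ← hadd]
      exact E.mul_mem (hcay _) (hE.inv_mem _ (hcay _))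
    rw [hE.comm _ h2 _ (hφE l), mul_assoc, h.mul_star, mul_one]
  have hmem : ∀ l : L, ((h.cayU (hφ l) : Dˣ) : D) ∈ E := fun l => hcay l
  have hkE : ∀ b : k, algebraMap k D b ∈ E := fun b => by
    rw [← AlgHom.commutes φ b]
    exact hφE _
  have _ : Group.IsSolvable (h.PE hE) := isSolvable_PE h hE
  refine (line_perm_om (k := k) (L := L) hP hP2 (col := c)
    (f := fun b => c (h.cayU (hφ (s + algebraMap k L b))))
    (hf := ?_) (PE := h.PE hE) (TT := fun l => h.T (φ l)) (hTT := ?_)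
    (Lt := fun b => h.L (h.cayU (hφ (s + algebraMap k L b))))
    (Tk := fun b => h.T (algebraMap k D b)) (hLt := ?_) (hTk := ?_)
    (gp := fun b₀ b => h.gp (φ (s + algebraMap k L b₀)) (algebraMap k D b))
    (gm := fun b₀ b => h.gm (φ (s + algebraMap k L b₀)) (algebraMap k D b))
    (Wk := fun b₀ b => h.W (kap δ (φ (s + algebraMap k L b₀)) (algebraMap k D b)))
    (wt := fun b₀ b => h.W ((h.ut (hφ (s + algebraMap k L b₀)) (hsb b) : Dˣ) : D))
    (hWk := ?_) (hwt := ?_) (hg := ?_) (hgm := ?_) (hrel := ?_) (hrelm := ?_) (hwt1 := ?_)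
    (hwt2 := ?_) (hcol := ?_) (hmean := ?_) (σ := fun b₀ => s + algebraMap k L b₀) (d := d)
    (ep := 1) (em := -1) (hDp := ?_) (hDm := ?_) (b₀ := 0) ?_ b)
  · intro b b'
    have h2 : h.cayU (hφ (s + algebraMap k L b)) * h.cayU (hφ (s + algebraMap k L b')) =
        h.cayU (hφ (s + algebraMap k L b')) * h.cayU (hφ (s + algebraMap k L b)) := by
      apply Subtype.ext
      apply Units.ext
      exact hE.comm _ (hcay _) _ (hcay _)
    change c _ * c _ = c _ * c _
    rw [← map_mul, h2, map_mul]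
  · exact fun l => h.T_mem_PE hE (hφE l) (hφ l)
  · exact fun b x => by rw [h.L_apply, map_mul]
  · intro b x
    change c x * c _ = c _ * c x
    rw [← map_mul, ← map_mul, h.T_commute (hsb b) (hk b)]
  · exact fun b₀ b => h.W_mem_PE hE (hE.kap_mem (hφE _) (hkE b)) (h.kap_ne (hφ _) (hsb b))
  · intro b₀ b
    refine h.W_mem_PE hE ?_ (Units.ne_zero _)
    rw [h.coe_ut, ← hadd]
    exact E.mul_mem (hcay _) (hE.inv_mem _ (hcay _))
  · intro b₀ b
    exact ⟨_, by rw [vv_map φ hd]; rfl⟩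
  · intro b₀ b
    refine ⟨-(algebraMap k L b * ((s + algebraMap k L b₀) ^ 2 +
      algebraMap k L b * (s + algebraMap k L b₀) + algebraMap k L d) *
      ((s + algebraMap k L b₀) ^ 2 - algebraMap k L d)⁻¹), ?_⟩
    have h3 : kap δ (φ (s + algebraMap k L b₀)) (algebraMap k D b) ∈ E :=
      hE.kap_mem (hφE _) (hkE b)
    have h4 : ((h.ut (hφ (s + algebraMap k L b₀)) (hsb b) : Dˣ) : D) ∈ E := by
      rw [h.coe_ut, ← hadd]
      exact E.mul_mem (hcay _) (hE.inv_mem _ (hcay _))
    rw [map_neg, vv_map φ hd, h.gm_eq (hφ _) (hsb b) (hcs b₀ b), mul_assoc, mul_assoc,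
      ← h.W_mul (h.kap_ne (hφ _) (hsb b)) (Units.ne_zero _), hE.comm _ h3 _ h4,
      h.W_mul (Units.ne_zero _) (h.kap_ne (hφ _) (hsb b))]
  · intro b₀ b
    rw [h.key (hφ _) (hsb b) (hcs b₀ b)]
    congr 2
    exact h.cayU_congr _ _ (hadd b₀ b).symm
  · intro b₀ b
    rw [← h.L_inv, ← h.L_inv, map_neg, h.key_neg (hφ _) (hsb b) (hcs b₀ b)]
    congr 3
    exact h.cayU_congr _ _ (hadd b₀ b).symm
  · intro b₀ b l
    refine ⟨l, ?_⟩
    rw [h.W_T_inv (Units.ne_zero _) (hφ l), hcommE]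
  · intro b₀ b l
    refine ⟨l, ?_⟩
    have h3 := h.W_T_inv (e := ((h.ut (hφ (s + algebraMap k L b₀)) (hsb b) : Dˣ) : D))
      (Units.ne_zero _) (hφ l)
    rw [hcommE] at h3
    nth_rw 1 [← h3]
    group
  · intro b₀ b x
    rw [h.W_unit, map_mul, map_mul, map_inv, hu, map_mul, map_inv]
  · intro b₀
    exact hmean_of_NE (h.PE hE) _ (hNE _ (hmem _))
  · intro b₀
    exact datP_gp h hφ hd (span_shift hspan b₀) fun b h0 => hs (b - b₀) (by
      rw [map_sub, ← h0, add_sub_cancel_right])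
  · intro b₀
    exact datP_gm h hφ hd (span_shift hspan b₀) fun b h0 => hs (b - b₀) (by
      rw [map_sub, ← h0, add_sub_cancel_right])
  · rw [← h1]
    congr 1
    exact h.cayU_congr _ _ (by rw [map_zero, add_zero])

end LField

end Vale.Agent.P011.H416
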