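import Vale.Agent.P011.H416.LineT
import Vale.Agent.P011.H3.Core

/-!
# The line theorem over a number field, from the output of P9
-/

open Matrix NumberField IsDedekindDomain Module

set_option linter.unusedSectionVars false

namespace Vale.Agent.P011.H416

open Vale.Agent.P011.Arith Vale.Agent.P011.Even Vale.Agent.P011.Two Vale.Agent.P011.One
  Vale.Agent.P011.H976 Vale.Agent.P011.H674.Pair Vale.Agent.P011.H966 Vale.Agent.P011.H565

variable {k K D : Type} [Field k] [NumberField k] [Field K] [NumberField K] [StarRing K]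
  [DivisionRing D] [StarRing D] [Algebra k K] [Algebra k D] [Algebra K D] [IsScalarTower k K D]
  {d : kˣ} {s : K} {q : HeightOneSpectrum (𝓞 k)} {n : ℕ}

theorem algS_ne (hS : Setting k K D d s) : algebraMap K D s ≠ 0 := fun h0 =>
  star_algS_ne hS (by rw [h0, star_zero])

/-- The Cayley chart over a number field. -/
theorem chart_NF (hS : Setting k K D d s) : Chart (UD D) (algebraMap K D s) where
  mem_iff := fun _ => mem_UD
  comm := algS_comm
  star_del := star_algS hS
  two := by
    have : CharZero D := charZero_of_injective_algebraMap (algebraMap k D).injective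
    exact two_ne_zero
  ne := algS_ne hS

theorem sq_algS (hS : Setting k K D d s) :
    algebraMap K D s ^ 2 = algebraMap k D (d : k) := by
  rw [← map_pow, hS.sq, ← IsScalarTower.algebraMap_apply]

theorem star_algk (hS : Setting k K D d s) (x : k) :
    star (algebraMap k D x) = algebraMap k D x := by
  rw [IsScalarTower.algebraMap_apply k K D, One.star_algK hS, (hS.fix _).2 ⟨x, rfl⟩]

/-- **The line statement, from the output of P9.** -/
theorem lineAt_of_NE (hS : Setting k K D d s)
    {f₀ : D →+* Matrix (Fin n) (Fin n) (q.adicCompletion k)}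
    {Q : Type*} [Group Q] [Finite Q] {c : UD D →* Q} {R : Subgroup Q}
    (hR : R.Normal) (hmin : ∀ N : Subgroup Q, N.Normal → N ≤ R → N = ⊥ ∨ N = R)
    (hcent : Subgroup.centralizer (R : Set Q) = ⊥)
    (hc : ∀ u : UD D, (∀ x : D, ((u : Dˣ) : D) * x = x * ((u : Dˣ) : D)) → c u = 1)
    (hNE : ∀ (E : Subring D) (hE : CStar (algebraMap K D s) E),
      (∀ x : k, algebraMap k D x ∈ E) → ∀ σ₁ ∈ E, star σ₁ = σ₁ →
      f₀ σ₁ ∈ H210.SR (Fin n) (q.adicCompletion k) → ∀ u : UD D, ((u : Dˣ) : D) ∈ E →
      NE c R {g | ∃ π ∈ (chart_NF hS).PE hE, g = (chart_NF hS).L u * π ∨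
        g = ((chart_NF hS).L u)⁻¹ * π}
        (fun b : k => (chart_NF hS).T (algebraMap k D b))) : H3.LineAt s f₀ c := by
  have := hS.fin
  have hkK : FiniteDimensional k K := Module.finite_of_finrank_pos (by rw [hS.rank]; norm_num)
  have : FiniteDimensional k D := FiniteDimensional.trans k K D
  intro σ hσ hsr τ hτ b u v hu hv h1
  have hτs : star τ = τ := star_adjoin (star_algk hS) hσ hτ
  have hτb : star (τ + algebraMap k D b) = τ + algebraMap k D b := by
    rw [star_add, hτs, star_algk hS]
  have key : ∀ {t : D} (ht : star t = t) (w : UD D),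
      ((w : Dˣ) : D) * (t - algebraMap K D s) = t + algebraMap K D s →
      w = (chart_NF hS).cayU ht := by
    intro t ht w hw
    apply Subtype.ext
    apply Units.ext
    rw [Chart.coe_cayU, Vale.Agent.P011.H674.Pair.cay, ← hw, mul_assoc, mul_inv_cancel₀ ((chart_NF hS).sub_ne ht),
      mul_one]
  rw [key hτs u hu] at h1
  rw [key hτb v hv]
  exact line_thm (chart_NF hS) hR hmin hcent (star_algk hS) (sq_algS hS) c hc
    (sp := fun x => f₀ x ∈ H210.SR (Fin n) (q.adicCompletion k)) hNE hσ hsr hτs hτ h1 b

end Vale.Agent.P011.H416
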