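import Vale.Agent.P011.H416.LineCore
import Vale.Agent.P011.H73.GrpLaw

/-!
# The line theorem with the group lemma (P2) plugged in
-/

namespace Vale.Agent.P011.H416

open Vale.Agent.P011.H674.Pair Vale.Agent.P011.H722 Vale.Agent.P011.H73.Gns Vale.Agent.P011.H966

universe u v

variable {k : Type v} [Field k] {D : Type u} [DivisionRing D] [StarRing D] [Algebra k D]
  [FiniteDimensional k D] {U : Subgroup Dˣ} {δ : D} (h : Chart U δ)

include h

/-- **The line theorem.**  `R` is a minimal normal subgroup of the finite group `Q` with trivial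
centralizer, `c` a homomorphism from the unitary group to `Q` which is trivial on the central
unitary elements.  `hNE` is the output of P9, for the symmetric elements with the property `sp`. -/
theorem line_thm [CharZero k] {Q : Type*} [Group Q] [Finite Q] {R : Subgroup Q}
    (hR : R.Normal) (hmin : ∀ N : Subgroup Q, N.Normal → N ≤ R → N = ⊥ ∨ N = R)
    (hcent : Subgroup.centralizer (R : Set Q) = ⊥)
    (hst : ∀ x : k, star (algebraMap k D x) = algebraMap k D x)
    {d : k} (hd : δ ^ 2 = algebraMap k D d)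
    (c : U →* Q) (hc : ∀ u : U, (∀ x : D, ((u : Dˣ) : D) * x = x * ((u : Dˣ) : D)) → c u = 1)
    {sp : D → Prop}
    (hNE : ∀ (E : Subring D) (hE : CStar δ E), (∀ x : k, algebraMap k D x ∈ E) →
      ∀ σ₁ ∈ E, star σ₁ = σ₁ → sp σ₁ → ∀ u : U, ((u : Dˣ) : D) ∈ E →
      NE c R {g | ∃ π ∈ h.PE hE, g = h.L u * π ∨ g = (h.L u)⁻¹ * π}
        (fun b : k => h.T (algebraMap k D b)))
    {σ₁ : D} (hσ₁ : star σ₁ = σ₁) (hsp : sp σ₁) {σ : D} (hσ : star σ = σ)
    (hmem : σ ∈ Algebra.adjoin k {σ₁}) (h1 : c (h.cayU hσ) = 1) (b : k) :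
    c (h.cayU (s := σ + algebraMap k D b) (by rw [star_add, hσ, hst])) = 1 := by
  have := Fintype.ofFinite Q
  exact line_core h hR (fun r s D _ hD => Vale.Agent.P011.H73.Grp.pairLaw_iff hR hmin hcent r s D hD)
    hst hd c hc hNE hσ₁ hsp hσ hmem h1 b

end Vale.Agent.P011.H416
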